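import Vale.Agent.P061.DenseSplit
import Vale.Agent.P061.DenseForest

/-!
# P061: thin spanning trees in dense graphs

A `k`-edge-connected multigraph on at most `m * d` vertices in which every vertex has at least `d`
distinct neighbours has a `(3300 m ^ 6 / min k d)`-thin spanning tree.

The vertices split into at most `2m` classes with large inner degree and no sparse cut inside a
class. A forest of bounded degree inside the classes crosses a cut at most proportionally to the
smaller sides, so proportionally to the cut divided by `n`; boundedly many further edges join it.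
-/

namespace Vale.Agent.Results.P061.DenseGraphs

open Vale.Agent.P061.Dense

/-- A finite loopless multigraph on `V`: edge copies with their two ends. -/
structure MGraph (V : Type) where
  E : Type
  fE : Fintype E
  fst : E → V
  snd : E → V
  loopless : ∀ e, fst e ≠ snd e

attribute [instance] MGraph.fE

variable {V : Type} [Fintype V] [DecidableEq V]

/-- The number of edge copies from `F` with exactly one end in `S`. -/
def cutCard (G : MGraph V) (F : Finset G.E) (S : Finset V) : ℕ :=
  (F.filter fun e => ¬ (G.fst e ∈ S ↔ G.snd e ∈ S)).card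

/-- Every nonempty proper vertex set is crossed by at least `k` edge copies. -/
def EdgeConnected (G : MGraph V) (k : ℕ) : Prop :=
  ∀ S : Finset V, S.Nonempty → S ≠ Finset.univ → k ≤ cutCard G Finset.univ S

/-- `n - 1` edge copies forming a connected graph on all of `V`. -/
def SpanningTree (G : MGraph V) (F : Finset G.E) : Prop :=
  F.card + 1 = Fintype.card V ∧
    (SimpleGraph.fromEdgeSet ((fun e => s(G.fst e, G.snd e)) '' (F : Set G.E))).Connected

/-- Thinness, with all cuts simultaneously. -/
def Thin (G : MGraph V) (F : Finset G.E) (a : ℝ) : Prop :=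
  ∀ S : Finset V, S.Nonempty → S ≠ Finset.univ →
    (cutCard G F S : ℝ) ≤ a * (cutCard G Finset.univ S : ℝ)

/-- The vertices joined to `v` by at least one edge copy. -/
def neighbours (G : MGraph V) (v : V) : Finset V :=
  Finset.univ.filter fun u => ∃ e, G.fst e = v ∧ G.snd e = u ∨ G.snd e = v ∧ G.fst e = u

/-- The underlying graph. -/
def support (G : MGraph V) : SimpleGraph V :=
  SimpleGraph.fromEdgeSet (Set.range fun e => s(G.fst e, G.snd e))

/-- A pair with exactly one end in `S`. -/
def Crosses (S : Finset V) (s : Sym2 V) : Prop := ∃ a b, s = s(a, b) ∧ a ∈ S ∧ b ∉ S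

omit [Fintype V] in
theorem crosses_iff (G : MGraph V) (S : Finset V) (e : G.E) :
    Crosses S s(G.fst e, G.snd e) ↔ ¬ (G.fst e ∈ S ↔ G.snd e ∈ S) := by
  constructor
  · rintro ⟨a, b, h, ha, hb⟩
    rcases Sym2.eq_iff.1 h with ⟨h1, h2⟩ | ⟨h1, h2⟩ <;> rw [h1, h2] <;> tauto
  · intro h
    by_cases h1 : G.fst e ∈ S
    · exact ⟨_, _, rfl, h1, fun h2 => h (iff_of_true h1 h2)⟩
    · refine ⟨_, _, Sym2.eq_swap, ?_, h1⟩
      by_contra h2
      exact h (iff_of_false h1 h2)

/-- Every `k`-edge-connected multigraph on at most `m * d` vertices in which each vertex has at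
least `d` distinct neighbours has a `(3300 m ^ 6 / min k d)`-thin spanning tree. -/
theorem result : ∀ (m d k : ℕ) (V : Type) [Fintype V] [DecidableEq V] (G : MGraph V),
    1 ≤ k → 1 ≤ d → 2 ≤ Fintype.card V → Fintype.card V ≤ m * d → EdgeConnected G k →
      (∀ v, d ≤ (neighbours G v).card) →
        ∃ T : Finset G.E, SpanningTree G T ∧
          Thin G T (3300 * (m : ℝ) ^ 6 / (min k d : ℕ)) := by
  intro m d k V _ hdec G hk hd hV hn hG hdeg
  classical
  obtain rfl : hdec = Classical.decEq V := Subsingleton.elim _ _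
  have : Nonempty V := Fintype.card_pos_iff.1 (by omega)
  let A := support G
  have hadj : ∀ a b, A.Adj a b ↔ ∃ e, s(G.fst e, G.snd e) = s(a, b) := by
    intro a b
    simp only [A, support, SimpleGraph.fromEdgeSet_adj, Set.mem_range, ne_eq]
    refine ⟨fun h => h.1, fun ⟨e, he⟩ => ⟨⟨e, he⟩, fun hab => ?_⟩⟩
    subst hab
    rcases Sym2.eq_iff.1 he with ⟨h1, h2⟩ | ⟨h1, h2⟩ <;> exact G.loopless e (h1.trans h2.symm)
  have hdA : ∀ v, d ≤ (Finset.univ.filter fun u => A.Adj v u).card := fun v => by
    refine (hdeg v).trans (Finset.card_le_card fun u hu => ?_)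
    simp only [neighbours, Finset.mem_filter, Finset.mem_univ, true_and] at hu ⊢
    obtain ⟨e, ⟨h1, h2⟩ | ⟨h1, h2⟩⟩ := hu
    · exact (hadj v u).2 ⟨e, by rw [h1, h2]⟩
    · exact (hadj v u).2 ⟨e, by rw [h1, h2, Sym2.eq_swap]⟩
  obtain ⟨P⟩ := exists_part hd (by omega) hn hdA
  let H : SimpleGraph V :=
    { Adj := fun a b => A.Adj a b ∧ P.f a = P.f b
      symm := ⟨fun a b h => ⟨h.1.symm, h.2.symm⟩⟩
      loopless := ⟨fun a h => h.1.ne rfl⟩ }
  have hdH : ∀ v, d ≤ 2 * m * deg H v := fun v => by
    refine (P.inner v).trans (Nat.mul_le_mul_left _ (Finset.card_le_card fun u hu => ?_))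
    simp only [nbrIn, Finset.mem_filter, Finset.mem_univ, true_and] at hu ⊢
    exact ⟨hu.1, hu.2.symm⟩
  obtain ⟨F, hFH, hFa, hFd, hFc⟩ := exists_forest H hd hn hdH
  have hA : A.Connected := by
    refine @SimpleGraph.Connected.mk _ _ (fun x y => ?_) ‹_›
    by_contra h
    have hcut := hG (Finset.univ.filter (A.Reachable x)) ⟨x, by simp⟩ fun e => h (by
      simpa using Finset.eq_univ_iff_forall.1 e y)
    obtain ⟨e, he⟩ := Finset.card_pos.1 (hk.trans hcut)
    have h1 : A.Adj (G.fst e) (G.snd e) := (hadj _ _).2 ⟨e, rfl⟩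
    simp only [Finset.mem_filter, Finset.mem_univ, true_and] at he
    exact he ⟨fun h => h.trans h1.reachable, fun h => h.trans h1.symm.reachable⟩
  obtain ⟨T₀, hFT, hTA, hT⟩ :=
    hA.exists_isTree_le_of_le_of_isAcyclic (hFH.trans fun a b h => h.1) hFa
  have hcopy : ∀ s ∈ eset T₀, ∃ e, s(G.fst e, G.snd e) = s := by
    intro s hs
    induction s using Sym2.ind with
    | _ a b => exact (hadj a b).1 (hTA (by simpa [eset] using hs))
  have : Nonempty G.E := by
    have h1 := card_eset_tree hT
    obtain ⟨s, hs⟩ := Finset.card_pos.1 (show 0 < (eset T₀).card by omega)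
    exact ⟨(hcopy s hs).choose⟩
  choose! ed hed using hcopy
  have hinj : Set.InjOn ed (eset T₀ : Set (Sym2 V)) := fun a ha b hb e => by
    rw [← hed a ha, ← hed b hb, e]
  refine ⟨(eset T₀).image ed, ⟨?_, ?_⟩, fun S hS hS' => ?_⟩
  · rw [Finset.card_image_of_injOn hinj]
    exact card_eset_tree hT
  · refine hT.connected.mono fun a b hab => ?_
    rw [SimpleGraph.fromEdgeSet_adj]
    refine ⟨⟨ed s(a, b), ?_, hed _ (by simpa [eset] using hab)⟩, hab.ne⟩
    exact Finset.mem_coe.2 (Finset.mem_image_of_mem _ (by simpa [eset] using hab))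
  -- the cut of the tree
  set n := Fintype.card V with hn'
  set cutG := cutCard G Finset.univ S with hcutG
  let Y : Finset V := Finset.univ.biUnion fun c =>
    if (cls P.f c ∩ S).card ≤ (cls P.f c \ S).card then cls P.f c ∩ S else cls P.f c \ S
  have hY : ∀ a b, H.Adj a b → a ∈ S → b ∉ S → a ∈ Y ∨ b ∈ Y := by
    intro a b hab ha hb
    simp only [Y, Finset.mem_biUnion, Finset.mem_univ, true_and]
    by_cases h : (cls P.f (P.f a) ∩ S).card ≤ (cls P.f (P.f a) \ S).card
    · exact Or.inl ⟨P.f a, by rw [if_pos h]; simp [cls, ha]⟩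
    · exact Or.inr ⟨P.f a, by rw [if_neg h]; simp [cls, hb, hab.2.symm]⟩
  set K := 40 * (2 * m + 1) ^ 2 * m ^ 2 with hK
  have hYcard : n * Y.card ≤ K * cutG := by
    have h1 : n * Y.card ≤ ∑ c, K * (pairs A (cls P.f c ∩ S) (cls P.f c \ S)).card := by
      refine (Nat.mul_le_mul_left _ Finset.card_biUnion_le).trans ?_
      rw [Finset.mul_sum]
      refine Finset.sum_le_sum fun c _ => ?_
      have h := P.robust c (cls P.f c ∩ S) Finset.inter_subset_left
      rw [show cls P.f c \ (cls P.f c ∩ S) = cls P.f c \ S by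
        ext x; simp] at h
      refine le_trans (Nat.mul_le_mul_left _ ?_) h
      split
      · next h' => rw [min_eq_left h']
      · next h' => rw [min_eq_right (by omega)]
    refine h1.trans ?_
    rw [← Finset.mul_sum]
    refine Nat.mul_le_mul_left _ ?_
    rw [← Finset.card_biUnion]
    · have hcop : ∀ p ∈ Finset.univ.biUnion (fun c => pairs A (cls P.f c ∩ S) (cls P.f c \ S)),
          A.Adj p.1 p.2 ∧ p.1 ∈ S ∧ p.2 ∉ S := by
        intro p hp
        simp only [Finset.mem_biUnion, pairs, Finset.mem_filter, Finset.mem_product,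
          Finset.mem_inter, Finset.mem_sdiff] at hp
        obtain ⟨c, -, ⟨⟨-, h1⟩, -, h2⟩, h3⟩ := hp
        exact ⟨h3, h1, h2⟩
      have hne : ∀ p ∈ Finset.univ.biUnion (fun c => pairs A (cls P.f c ∩ S) (cls P.f c \ S)),
          ∃ e, s(G.fst e, G.snd e) = s(p.1, p.2) := fun p hp => (hadj _ _).1 (hcop p hp).1
      choose! g hg using hne
      refine Finset.card_le_card_of_injOn g (fun p hp => ?_) fun p hp q hq e => ?_
      · refine Finset.mem_coe.2 (Finset.mem_filter.2 ⟨Finset.mem_univ _, ?_⟩)
        rw [← crosses_iff, hg p hp]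
        exact ⟨_, _, rfl, (hcop p hp).2.1, (hcop p hp).2.2⟩
      · have e1 := (hg p hp).symm.trans ((e ▸ rfl : s(G.fst (g p), G.snd (g p)) =
          s(G.fst (g q), G.snd (g q))).trans (hg q hq))
        rcases Sym2.eq_iff.1 e1 with ⟨h1, h2⟩ | ⟨h1, h2⟩
        · exact Prod.ext h1 h2
        · exact absurd (h1 ▸ (hcop p hp).2.1) (hcop q hq).2.2
    · intro a _ b _ hab
      simp only [Function.onFun, Finset.disjoint_left]
      intro p hp hq
      simp only [pairs, Finset.mem_filter, Finset.mem_product, Finset.mem_inter, cls,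
        Finset.mem_univ, true_and] at hp hq
      exact hab (hp.1.1.1.symm.trans hq.1.1.1)
  have hcutT : cutCard G ((eset T₀).image ed) S ≤ 9 * m ^ 2 * Y.card + 4 * m ^ 2 := by
    have h1 : cutCard G ((eset T₀).image ed) S ≤ ((eset T₀).filter (Crosses S)).card := by
      unfold cutCard
      rw [Finset.filter_image]
      refine Finset.card_image_le.trans (Finset.card_le_card fun s hs => ?_)
      simp only [Finset.mem_filter] at hs ⊢
      have := (crosses_iff G S _).2 hs.2
      rw [hed s hs.1] at this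
      exact ⟨hs.1, this⟩
    have h2 : (eset T₀).filter (Crosses S) ⊆ (eset F).filter (Crosses S) ∪ (eset T₀ \ eset F) := by
      intro s hs
      obtain ⟨h, h'⟩ := Finset.mem_filter.1 hs
      by_cases hF : s ∈ eset F
      · exact Finset.mem_union_left _ (Finset.mem_filter.2 ⟨hF, h'⟩)
      · exact Finset.mem_union_right _ (Finset.mem_sdiff.2 ⟨h, hF⟩)
    have h3 : ((eset F).filter (Crosses S)).card ≤ 9 * m ^ 2 * Y.card := by
      refine crossing_le F _ hFd Y _ fun a b hab ⟨a', b', he, ha, hb⟩ => ?_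
      rcases Sym2.eq_iff.1 he with ⟨rfl, rfl⟩ | ⟨rfl, rfl⟩
      · exact hY _ _ (hFH hab) ha hb
      · exact (hY _ _ (hFH hab).symm ha hb).symm
    have h4 : (eset T₀ \ eset F).card ≤ 4 * m ^ 2 := by
      have hsub : eset F ⊆ eset T₀ := fun s hs => by
        simp only [eset, Finset.mem_filter, Finset.mem_univ, true_and] at hs ⊢
        exact SimpleGraph.edgeSet_mono hFT hs
      rw [Finset.card_sdiff_of_subset hsub]
      have := card_eset_tree hT
      have := card_le_eset_add_comp F
      omega
    have := (Finset.card_le_card h2).trans (Finset.card_union_le _ _)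
    omega
  have hm : 0 < m := by
    rcases Nat.eq_zero_or_pos m with rfl | h0
    · simp at hn; omega
    · exact h0
  have hmain : min k d * cutCard G ((eset T₀).image ed) S ≤ 3300 * m ^ 6 * cutG := by
    have hdn : d ≤ n := by
      obtain ⟨v⟩ := ‹Nonempty V›
      exact (hdeg v).trans (Finset.card_le_univ _)
    have hkc : k ≤ cutG := hG S hS hS'
    have hK' : 9 * m ^ 2 * K + 4 * m ^ 2 ≤ 3300 * m ^ 6 := by
      have h1 : (2 * m + 1) ^ 2 ≤ 9 * m ^ 2 :=
        (Nat.pow_le_pow_left (show 2 * m + 1 ≤ 3 * m by omega) 2).trans_eq (by ring)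
      have h2 : K ≤ 360 * m ^ 4 := by
        calc K ≤ 40 * (9 * m ^ 2) * m ^ 2 := by rw [hK]; gcongr
          _ = _ := by ring
      have h3 : m ^ 2 ≤ m ^ 6 := Nat.pow_le_pow_right hm (by norm_num)
      calc 9 * m ^ 2 * K + 4 * m ^ 2 ≤ 9 * m ^ 2 * (360 * m ^ 4) + 4 * m ^ 6 := by gcongr
        _ = 3244 * m ^ 6 := by ring
        _ ≤ _ := Nat.mul_le_mul_right _ (by norm_num)
    calc min k d * cutCard G ((eset T₀).image ed) S
        ≤ min k d * (9 * m ^ 2 * Y.card + 4 * m ^ 2) := Nat.mul_le_mul_left _ hcutT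
      _ = 9 * m ^ 2 * (min k d * Y.card) + 4 * m ^ 2 * min k d := by ring
      _ ≤ 9 * m ^ 2 * (n * Y.card) + 4 * m ^ 2 * cutG := by
          gcongr
          · exact (min_le_right _ _).trans hdn
          · exact (min_le_left _ _).trans hkc
      _ ≤ 9 * m ^ 2 * (K * cutG) + 4 * m ^ 2 * cutG := by gcongr
      _ = (9 * m ^ 2 * K + 4 * m ^ 2) * cutG := by ring
      _ ≤ _ := Nat.mul_le_mul_right _ hK'
  rw [div_mul_eq_mul_div, le_div_iff₀ (by exact_mod_cast (show 0 < min k d by omega)), mul_comm]
  exact_mod_cast hmain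

end Vale.Agent.Results.P061.DenseGraphs
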