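import Mathlib

namespace Vale.Agent.Results.P061.LowerFour

/-- A finite loopless multigraph on `V`: edge copies with their two ends. -/
structure MGraph (V : Type) where
  E : Type
  fE : Fintype E
  fst : E → V
  snd : E → V
  loopless : ∀ e, fst e ≠ snd e

attribute [instance] MGraph.fE

variable {V : Type} [Fintype V] [DecidableEq V]

/-- The number of edge copies from `F` with exactly one end in `S`. -/
def cutCard (G : MGraph V) (F : Finset G.E) (S : Finset V) : ℕ :=
  (F.filter fun e => ¬ (G.fst e ∈ S ↔ G.snd e ∈ S)).card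

/-- Every nonempty proper vertex set is crossed by at least `k` edge copies. -/
def EdgeConnected (G : MGraph V) (k : ℕ) : Prop :=
  ∀ S : Finset V, S.Nonempty → S ≠ Finset.univ → k ≤ cutCard G Finset.univ S

/-- `n - 1` edge copies forming a connected graph on all of `V`. -/
def SpanningTree (G : MGraph V) (F : Finset G.E) : Prop :=
  F.card + 1 = Fintype.card V ∧
    (SimpleGraph.fromEdgeSet ((fun e => s(G.fst e, G.snd e)) '' (F : Set G.E))).Connected

/-- Thinness, with all cuts simultaneously. -/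
def Thin (G : MGraph V) (F : Finset G.E) (a : ℝ) : Prop :=
  ∀ S : Finset V, S.Nonempty → S ≠ Finset.univ →
    (cutCard G F S : ℝ) ≤ a * (cutCard G Finset.univ S : ℝ)

/-- The edge copies of the complete graph on `Fin n`. -/
def completeM (n : ℕ) : MGraph (Fin n) where
  E := {p : Fin n × Fin n // p.1 < p.2}
  fE := inferInstance
  fst p := p.1.1
  snd p := p.1.2
  loopless p := ne_of_lt p.2

lemma cutCard_completeM (n : ℕ) (S : Finset (Fin n)) :
    cutCard (completeM n) Finset.univ S = S.card * Sᶜ.card := by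
  rw [← Finset.card_product]
  unfold cutCard
  refine Finset.card_bij
    (fun p _ => if p.1.1 ∈ S then (p.1.1, p.1.2) else (p.1.2, p.1.1)) ?_ ?_ ?_
  · intro p hp
    have hp' : ¬ (p.1.1 ∈ S ↔ p.1.2 ∈ S) := (Finset.mem_filter.1 hp).2
    split_ifs with h
    · exact Finset.mem_product.2 ⟨h, Finset.mem_compl.2 fun h2 => hp' (iff_of_true h h2)⟩
    · exact Finset.mem_product.2
        ⟨by by_contra h2; exact hp' (iff_of_false h h2), Finset.mem_compl.2 h⟩
  · intro p hp q hq h
    have hp' := p.2
    have hq' := q.2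
    apply Subtype.ext
    split_ifs at h <;> simp_all [Prod.ext_iff] <;> omega
  · intro b hb
    simp only [Finset.mem_product, Finset.mem_compl] at hb
    have hne : b.1 ≠ b.2 := fun h => hb.2 (h ▸ hb.1)
    rcases lt_or_gt_of_ne hne with h | h
    · exact ⟨⟨(b.1, b.2), h⟩, Finset.mem_filter.2 ⟨Finset.mem_univ _, fun hi => hb.2 (hi.1 hb.1)⟩, by simp [hb.1]⟩
    · exact ⟨⟨(b.2, b.1), h⟩, Finset.mem_filter.2 ⟨Finset.mem_univ _, fun hi => hb.2 (hi.2 hb.1)⟩, by simp [hb.2]⟩

lemma exists_all_crossing {G : MGraph V} {F : Finset G.E} (hF : SpanningTree G F)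
    (hcard : 2 ≤ Fintype.card V) :
    ∃ S : Finset V, S.Nonempty ∧ S ≠ Finset.univ ∧ cutCard G F S = F.card := by
  classical
  obtain ⟨hn, hconn⟩ := hF
  set f := fun e => s(G.fst e, G.snd e) with hf
  set T := SimpleGraph.fromEdgeSet (f '' (F : Set G.E)) with hT
  have hsub : T.edgeSet ⊆ f '' (F : Set G.E) := by
    rw [hT, SimpleGraph.edgeSet_fromEdgeSet]
    exact Set.sdiff_subset
  have hle : Nat.card T.edgeSet ≤ F.card := by
    calc Nat.card T.edgeSet ≤ Nat.card (f '' (F : Set G.E)) :=
          Nat.card_mono (Set.toFinite _) hsub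
      _ ≤ Nat.card (F : Set G.E) := Nat.card_image_le (Set.toFinite _)
      _ = F.card := by simp
  have htree : T.IsTree := by
    rw [SimpleGraph.isTree_iff_connected_and_card]
    have := hconn.card_vert_le_card_edgeSet_add_one
    refine ⟨hconn, ?_⟩
    rw [Nat.card_eq_fintype_card (α := V)] at this ⊢
    omega
  obtain ⟨col⟩ := htree.isAcyclic.isBipartite
  have hadj : ∀ e ∈ F, T.Adj (G.fst e) (G.snd e) := fun e he =>
    (SimpleGraph.fromEdgeSet_adj _).2 ⟨⟨e, he, rfl⟩, G.loopless e⟩
  have hFne : F.Nonempty := Finset.card_pos.1 (by omega)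
  obtain ⟨e0, he0⟩ := hFne
  have hcross : ∀ e ∈ F, ¬ (col (G.fst e) = 0 ↔ col (G.snd e) = 0) := by
    intro e he h
    have := col.valid (hadj e he)
    rcases Fin.exists_fin_two.1 ⟨col (G.fst e), rfl⟩ with h1 | h1 <;> omega
  refine ⟨Finset.univ.filter (fun v => col v = 0), ?_, ?_, ?_⟩
  · by_contra h
    simp [Finset.not_nonempty_iff_eq_empty, Finset.filter_eq_empty_iff] at h
    exact hcross e0 he0 (by simp [h])
  · intro h
    simp [Finset.filter_eq_self] at h
    exact hcross e0 he0 (by simp [h])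
  · unfold cutCard
    rw [Finset.filter_true_of_mem]
    intro e he
    simpa using hcross e he

/-- For every `C < 4` and all large `k`, the complete graph on `k + 1` vertices is
`k`-edge-connected and has no `C / k`-thin spanning tree. -/
theorem result : ∀ C : ℝ, C < 4 → ∃ k0 : ℕ, ∀ k : ℕ, k0 ≤ k →
    ∃ (n : ℕ) (G : MGraph (Fin n)), 2 ≤ n ∧ EdgeConnected G k ∧
      ∀ F : Finset G.E, SpanningTree G F → ¬ Thin G F (C / k) := by
  intro C hC
  obtain ⟨N, hN⟩ := exists_nat_gt (16 / (4 - C))
  refine ⟨N + 1, fun k hk => ⟨k + 1, completeM (k + 1), by omega, ?_, ?_⟩⟩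
  · intro S hS hS'
    rw [cutCard_completeM]
    have h1 : 1 ≤ S.card := hS.card_pos
    have h2 : 1 ≤ Sᶜ.card := by
      rw [Nat.one_le_iff_ne_zero, Finset.card_ne_zero]
      rwa [Finset.nonempty_iff_ne_empty, Ne, Finset.compl_eq_empty_iff]
    have h3 := S.card_add_card_compl
    simp only [Fintype.card_fin] at h3
    nlinarith
  · intro F hF hthin
    obtain ⟨S, hS, hS', hcut⟩ := exists_all_crossing hF (by simp; omega)
    have h := hthin S hS hS'
    have hc : F.card = k := by
      have := hF.1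
      simp only [Fintype.card_fin] at this
      omega
    rw [hcut, hc, cutCard_completeM] at h
    have h3 : (S.card : ℝ) + (Sᶜ.card : ℝ) = k + 1 := by
      exact_mod_cast (by simpa using S.card_add_card_compl)
    push_cast at h
    have hk1 : (N : ℝ) + 1 ≤ k := by exact_mod_cast hk
    have hkpos : (0 : ℝ) < k := lt_of_lt_of_le (by positivity) hk1
    have h8 : 16 < (4 - C) * k := by
      have := (div_lt_iff₀ (by linarith)).1 hN
      nlinarith
    rw [div_mul_eq_mul_div, le_div_iff₀ hkpos] at h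
    have hC0 : 0 ≤ C := by
      by_contra hneg
      push Not at hneg
      nlinarith [mul_nonneg (Nat.cast_nonneg (α := ℝ) S.card)
        (Nat.cast_nonneg (α := ℝ) Sᶜ.card)]
    have ha := mul_nonneg hC0 (sq_nonneg ((S.card : ℝ) - Sᶜ.card))
    have hb : C * ((S.card : ℝ) + Sᶜ.card) ^ 2 = C * ((k : ℝ) + 1) ^ 2 := by rw [h3]
    have hk2 : (1 : ℝ) ≤ k := by exact_mod_cast (by omega : 1 ≤ k)
    have hc2 : C * (2 * k + 1) ≤ 4 * (3 * k) :=
      mul_le_mul hC.le (by linarith) (by linarith) (by norm_num)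
    nlinarith [mul_lt_mul_of_pos_right h8 hkpos]

end Vale.Agent.Results.P061.LowerFour
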