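import Vale.Agent.P061.TW.Choose

/-!
# P061: thin spanning trees in graphs of bounded treewidth

A `k`-edge-connected multigraph of treewidth less than `w` has a
`(100 * 2 ^ w * (w + 1) ^ 3 / k)`-thin spanning tree.

Going up a tree decomposition, a node merges the two pieces joined by the heaviest bundle of at
least `k / w` copies. A cut is charged by the drop of a potential of pieces. Few patterns of cuts
have a small drop under one bundle, so one copy of the bundle is crossed only by cuts that pay.
-/

namespace Vale.Agent.Results.P061.TreeWidth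

open Finset

/-- A finite loopless multigraph on `V`: edge copies with their two ends. -/
structure MGraph (V : Type) where
  E : Type
  fE : Fintype E
  fst : E → V
  snd : E → V
  loopless : ∀ e, fst e ≠ snd e

attribute [instance] MGraph.fE

variable {V : Type} [Fintype V] [DecidableEq V]

/-- The number of edge copies from `F` with exactly one end in `S`. -/
def cutCard (G : MGraph V) (F : Finset G.E) (S : Finset V) : ℕ :=
  (F.filter fun e => ¬ (G.fst e ∈ S ↔ G.snd e ∈ S)).card

/-- Every nonempty proper vertex set is crossed by at least `k` edge copies. -/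
def EdgeConnected (G : MGraph V) (k : ℕ) : Prop :=
  ∀ S : Finset V, S.Nonempty → S ≠ Finset.univ → k ≤ cutCard G Finset.univ S

/-- `n - 1` edge copies forming a connected graph on all of `V`. -/
def SpanningTree (G : MGraph V) (F : Finset G.E) : Prop :=
  F.card + 1 = Fintype.card V ∧
    (SimpleGraph.fromEdgeSet ((fun e => s(G.fst e, G.snd e)) '' (F : Set G.E))).Connected

/-- Thinness, with all cuts simultaneously. -/
def Thin (G : MGraph V) (F : Finset G.E) (a : ℝ) : Prop :=
  ∀ S : Finset V, S.Nonempty → S ≠ Finset.univ →
    (cutCard G F S : ℝ) ≤ a * (cutCard G Finset.univ S : ℝ)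

/-- Treewidth less than `w`: a rooted forest of bags with at most `w` vertices each, parents
having larger numbers, such that the two ends of every edge share a bag and the bags of every
vertex form a subtree, that is, exactly one of them has no parent containing the vertex. -/
def TreeWidthLT (G : MGraph V) (w : ℕ) : Prop :=
  ∃ (m : ℕ) (par : Fin m → Option (Fin m)) (bag : Fin m → Finset V),
    (∀ i j, par i = some j → i < j) ∧ (∀ i, (bag i).card ≤ w) ∧
    (∀ e, ∃ i, G.fst e ∈ bag i ∧ G.snd e ∈ bag i) ∧
    ∀ v, ∃! i, v ∈ bag i ∧ ∀ j, par i = some j → v ∉ bag j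

omit [Fintype V] [DecidableEq V] in
/-- With unique tops, a vertex below and outside a node lies in the node and in its parent. -/
theorem inter_of_top {ι : Type} {par : ι → Option ι} {bag : ι → Finset V} {root : ι}
    (hroot : par root = none)
    (hle : ∀ u, Relation.ReflTransGen (fun a b => par a = some b) u root) {x : V}
    (huniq : ∀ a b, x ∈ bag a → (∀ p, par a = some p → x ∉ bag p) → x ∈ bag b →
      (∀ p, par b = some p → x ∉ bag p) → a = b)
    {u z c p : ι} (hu : x ∈ bag u) (hz : x ∈ bag z)
    (huc : Relation.ReflTransGen (fun a b => par a = some b) u c)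
    (hzc : ¬ Relation.ReflTransGen (fun a b => par a = some b) z c) (hp : par c = some p) :
    x ∈ bag c ∧ x ∈ bag p := by
  have climb : ∀ c u, Relation.ReflTransGen (fun a b => par a = some b) u c → x ∈ bag u →
      (x ∈ bag c ∧ ∀ p, par c = some p → x ∈ bag p) ∨
      ∃ a, x ∈ bag a ∧ (∀ p, par a = some p → x ∉ bag p) ∧
        Relation.ReflTransGen (fun a b => par a = some b) u a ∧
        Relation.ReflTransGen (fun a b => par a = some b) a c := by
    intro c u h
    induction h using Relation.ReflTransGen.head_induction_on with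
    | refl =>
      intro hx
      by_cases hq : ∀ p, par c = some p → x ∈ bag p
      · exact Or.inl ⟨hx, hq⟩
      · push Not at hq
        obtain ⟨q, hq, hqx⟩ := hq
        refine Or.inr ⟨c, hx, fun p hp => ?_, .refl, .refl⟩
        rwa [Option.some.inj (hp.symm.trans hq)]
    | @head a b hab hbc ih =>
      intro hx
      by_cases hxb : x ∈ bag b
      · rcases ih hxb with h | ⟨q, h1, h2, h3, h4⟩
        · exact Or.inl h
        · exact Or.inr ⟨q, h1, h2, Relation.ReflTransGen.head hab h3, h4⟩
      · refine Or.inr ⟨a, hx, fun p hp => ?_, .refl, Relation.ReflTransGen.head hab hbc⟩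
        rwa [Option.some.inj (hp.symm.trans hab)]
  rcases climb c u huc hu with ⟨h1, h2⟩ | ⟨a, ha, ha', -, hac⟩
  · exact ⟨h1, h2 p hp⟩
  · refine absurd ?_ hzc
    rcases climb root z (hle z) hz with ⟨h, -⟩ | ⟨b, hb, hb', hzb, -⟩
    · have := huniq a root ha ha' h fun q hq => by rw [hroot] at hq; exact absurd hq (by simp)
      subst this
      exact (hle z).trans hac
    · obtain rfl := huniq a b ha ha' hb hb'
      exact hzb.trans hac

/-- A `k`-edge-connected multigraph of treewidth less than `w` has a
`(100 * 2 ^ w * (w + 1) ^ 3 / k)`-thin spanning tree. -/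
theorem result : ∀ (w k : ℕ) (V : Type) [Fintype V] [DecidableEq V] (G : MGraph V),
    1 ≤ k → 2 ≤ Fintype.card V → EdgeConnected G k → TreeWidthLT G w →
      ∃ T : Finset G.E, SpanningTree G T ∧
        Thin G T (100 * 2 ^ w * ((w : ℝ) + 1) ^ 3 / k) := by
  intro w k V _ hdec G hk hV hcon ⟨m, par, bag, hlt, hcard, hedge, htop⟩
  obtain rfl : hdec = Classical.decEq V := Subsingleton.elim _ _
  classical
  obtain ⟨v₀⟩ : Nonempty V := Fintype.card_pos_iff.1 (by omega)
  have : Nonempty V := ⟨v₀⟩
  have hm : 0 < m := let ⟨i, _⟩ := htop v₀; i.pos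
  let r : Fin m := ⟨m - 1, by omega⟩
  have hr : ∀ i : Fin m, i ≤ r := fun i => by
    show i.val ≤ m - 1
    omega
  have hrpar : par r = none := by
    cases h : par r with
    | none => rfl
    | some j => exact absurd (hlt r j h) (not_lt.2 (hr j))
  let par' : Fin m → Option (Fin m) := fun i =>
    if i = r then none else some ((par i).getD r)
  have hpar' : ∀ i j, par' i = some j → i < j := by
    intro i j h
    simp only [par'] at h
    split_ifs at h with hi
    cases hp : par i with
    | none =>
      simp only [hp, Option.getD_none, Option.some.injEq] at h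
      exact h ▸ lt_of_le_of_ne (hr i) hi
    | some q =>
      simp only [hp, Option.getD_some, Option.some.injEq] at h
      exact h ▸ hlt i q hp
  let nxt : Fin m × Fin (w + 1) → Option (Fin m × Fin (w + 1)) := fun c =>
    if h : c.2.val + 1 < w + 1 then some (c.1, ⟨c.2.val + 1, h⟩)
    else (par' c.1).map fun p => (p, 0)
  let ht : Fin m × Fin (w + 1) → ℕ := fun c => c.1.val * (w + 1) + c.2.val
  have hht : ∀ u p, nxt u = some p → ht u < ht p := by
    rintro ⟨i, j⟩ p h
    simp only [nxt] at h
    split_ifs at h with hj
    · cases h; simp only [ht]; omega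
    · obtain ⟨q, hq, rfl⟩ := Option.map_eq_some_iff.1 h
      have hiq : i.val + 1 ≤ q.val := hpar' i q hq
      have := Nat.mul_le_mul_right (w + 1) hiq
      have := j.isLt
      simp only [ht, Fin.val_zero]
      rw [add_mul] at *
      omega
  let root : Fin m × Fin (w + 1) := (r, Fin.last w)
  have hroot : nxt root = none := by simp [nxt, root, par']
  have hle : ∀ u, Relation.ReflTransGen (fun a b => nxt a = some b) u root := by
    intro u
    induction hn : m * (w + 1) - ht u using Nat.strong_induction_on generalizing u with
    | _ n ih =>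
      cases h : nxt u with
      | none =>
        suffices u = root by rw [this]
        obtain ⟨i, j⟩ := u
        simp only [nxt] at h
        split_ifs at h with hj
        simp only [par', Option.map_eq_none_iff, ite_eq_left_iff, reduceCtorEq,
          imp_false, not_not] at h
        refine Prod.ext h (Fin.ext ?_)
        have := j.isLt
        simp only [root, Fin.val_last]
        omega
      | some p =>
        refine Relation.ReflTransGen.head h (ih _ ?_ p rfl)
        have h1 := hht u p h
        have h2 : ht p < m * (w + 1) := by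
          have := Nat.mul_le_mul_right (w + 1) (show p.1.val + 1 ≤ m from p.1.isLt)
          have := p.2.isLt
          simp only [ht]
          rw [add_mul] at *
          omega
        omega
  choose hm' hf hs using hedge
  have huniq : ∀ x (a b : Fin m × Fin (w + 1)), x ∈ insert v₀ (bag a.1) →
      (∀ p, nxt a = some p → x ∉ insert v₀ (bag p.1)) → x ∈ insert v₀ (bag b.1) →
      (∀ p, nxt b = some p → x ∉ insert v₀ (bag p.1)) → a = b := by
    intro x
    have hlast : ∀ c, x ∈ insert v₀ (bag c.1) →
        (∀ p, nxt c = some p → x ∉ insert v₀ (bag p.1)) → c.2 = Fin.last w ∧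
        ∀ q, par' c.1 = some q → x ∉ insert v₀ (bag q) := by
      intro c hx h
      by_cases hj : c.2.val + 1 < w + 1
      · exact absurd hx (h (c.1, ⟨c.2.val + 1, hj⟩) (by simp only [nxt, dif_pos hj]))
      · refine ⟨Fin.ext (by have := c.2.isLt; simp only [Fin.val_last]; omega), fun q hq => ?_⟩
        exact h (q, 0) (by simp only [nxt, dif_neg hj, hq, Option.map_some])
    by_cases hx0 : x = v₀
    · subst hx0
      have key : ∀ c, (∀ p, nxt c = some p → x ∉ insert x (bag p.1)) → c = root := fun c h => by
        obtain ⟨h2, h1⟩ := hlast c (mem_insert_self _ _) h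
        refine Prod.ext ?_ h2
        by_contra hc
        exact h1 _ (if_neg hc) (mem_insert_self _ _)
      exact fun a b _ ha _ hb => (key a ha).trans (key b hb).symm
    · have key : ∀ c, x ∈ insert v₀ (bag c.1) →
          (∀ p, nxt c = some p → x ∉ insert v₀ (bag p.1)) →
          c.2 = Fin.last w ∧ x ∈ bag c.1 ∧ ∀ j, par c.1 = some j → x ∉ bag j := by
        intro c hx h
        obtain ⟨h2, h1⟩ := hlast c hx h
        refine ⟨h2, (mem_insert.1 hx).resolve_left hx0, fun j hj hxj => ?_⟩
        refine h1 j ?_ (mem_insert_of_mem hxj)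
        have : c.1 ≠ r := fun e => by rw [e, hrpar] at hj; exact absurd hj (by simp)
        simp [par', this, hj]
      intro a b ha ha' hb hb'
      obtain ⟨a2, a1⟩ := key a ha ha'
      obtain ⟨b2, b1⟩ := key b hb hb'
      exact Prod.ext ((htop x).unique a1 b1) (a2.trans b2.symm)
  let D : Vale.Agent.P061.TW.Dec V G.E :=
    { fst := G.fst
      snd := G.snd
      k := k
      w := w + 1
      hk := hk
      conn := fun S h1 h2 => (hcon S h1 h2).trans_eq
        (congrArg Finset.card (Finset.filter_congr fun g _ => Iff.rfl))
      ι := Fin m × Fin (w + 1)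
      fι := inferInstance
      par := nxt
      ht := ht
      ht_lt := hht
      bag := fun c => insert v₀ (bag c.1)
      card_bag := fun c => (card_insert_le _ _).trans (Nat.add_le_add_right (hcard _) 1)
      home := fun g => (hm' g, 0)
      home_fst := fun g => mem_insert_of_mem (hf g)
      home_snd := fun g => mem_insert_of_mem (hs g)
      ri := fun x u z c p hu hz huc hzc hp =>
        inter_of_top hroot hle (huniq x) hu hz huc hzc hp
      root := root
      le_root := hle
      cover := fun x => let ⟨i, hi, _⟩ := htop x; ⟨(i, 0), mem_insert_of_mem hi.1⟩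
      v₀ := v₀
      v₀_mem := fun c => mem_insert_self _ _
      rk := fun c => c.2.val
      rk_step := by
        rintro ⟨i, j⟩ n (hjn : j.val = n + 1)
        refine ⟨(i, ⟨n, by omega⟩), ?_, rfl, rfl, fun g h => ?_⟩
        · rintro ⟨i', j'⟩
          simp only [nxt]
          by_cases h : j'.val + 1 < w + 1
          · simp only [dif_pos h, Option.some.injEq, Prod.mk.injEq, Fin.ext_iff]
            omega
          · simp only [dif_neg h, Option.map_eq_some_iff, Prod.mk.injEq, Fin.ext_iff]
            constructor
            · rintro ⟨q, -, -, h0⟩; simp at h0; omega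
            · rintro ⟨-, h0⟩; omega
        · have := congrArg (fun c => c.2.val) h
          simp at this
          omega
      rk_last := by
        rintro ⟨i, j⟩ h
        have hj : j.val + 1 < w + 1 := by have := j.isLt; simp at h; omega
        exact ⟨(i, ⟨j.val + 1, hj⟩), by simp only [nxt, dif_pos hj], subset_refl _⟩ }
  obtain ⟨T, hT, hthin⟩ := D.exists_thin
  -- a spanning tree inside the connected set
  have hconn : (SimpleGraph.fromEdgeSet
      ((fun e => s(G.fst e, G.snd e)) '' (T : Set G.E))).Connected :=
    ⟨fun x y => hT x y⟩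
  obtain ⟨Tg, hTg, htree⟩ := hconn.exists_isTree_le
  have hpre : ∀ s ∈ Tg.edgeFinset, ∃ g ∈ T, s(G.fst g, G.snd g) = s := fun s hs => by
    have := SimpleGraph.edgeSet_mono hTg (SimpleGraph.mem_edgeFinset.1 hs)
    rw [SimpleGraph.edgeSet_fromEdgeSet] at this
    exact this.1
  choose f hfT hfs using hpre
  set F := Tg.edgeFinset.attach.image fun s => f s.1 s.2 with hF
  have hFT : F ⊆ T := fun g hg => by
    obtain ⟨s, -, rfl⟩ := mem_image.1 hg
    exact hfT _ _
  refine ⟨F, ⟨?_, ?_⟩, fun S _ _ => ?_⟩
  · rw [hF, card_image_of_injOn, card_attach, htree.card_edgeFinset]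
    intro a _ b _ (h : f a.1 a.2 = f b.1 b.2)
    have := congrArg (fun g => s(G.fst g, G.snd g)) h
    exact Subtype.ext ((hfs a.1 a.2).symm.trans (this.trans (hfs b.1 b.2)))
  · refine htree.connected.mono fun a b hab => ?_
    refine (SimpleGraph.fromEdgeSet_adj _).2 ⟨⟨f s(a, b) (SimpleGraph.mem_edgeFinset.2 hab),
      mem_coe.2 (mem_image.2 ⟨⟨_, SimpleGraph.mem_edgeFinset.2 hab⟩, mem_attach _ _, rfl⟩),
      hfs _ _⟩, hab.ne⟩
  have hσ := hthin fun x => decide (x ∈ S)
  have he : ∀ Fs : Finset G.E,
      (Fs.filter fun g => decide (D.fst g ∈ S) ≠ decide (D.snd g ∈ S)).card = cutCard G Fs S :=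
    fun Fs => congrArg Finset.card (Finset.filter_congr fun g _ => by
      simp only [ne_eq, decide_eq_decide]
      exact Iff.rfl)
  have h1 : cutCard G F S ≤ cutCard G T S := card_le_card (filter_subset_filter _ hFT)
  have h2 : k * cutCard G T S ≤ 100 * 2 ^ w * (w + 1) ^ 3 * cutCard G univ S := by
    rw [← he T, ← he univ]
    refine le_trans hσ (le_of_eq ?_)
    show 2 * (25 * 2 ^ (w + 1) * (w + 1)) * (w + 1) * (w + 1) * _ = _
    ring
  rw [div_mul_eq_mul_div, le_div_iff₀ (by exact_mod_cast hk), mul_comm (cutCard G F S : ℝ)]
  exact_mod_cast (Nat.mul_le_mul_left k h1).trans h2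

end Vale.Agent.Results.P061.TreeWidth
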